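import Vale.Agent.P088I65.Main

/-!
# P088: a metric and a unitary connection are determined by the data on one boundary patch
-/

open Manifold MeasureTheory Vale.Agent.P088J
open scoped ContDiff

namespace Vale.Agent.Results.P088.AIntrinsic

universe u

/-- **Question 1 in full, affirmative answer, with the objects of the text.** The product of
`1`-forms, the volume `dV_g`, the operator `L_{g,A} = d_A^* d_A` and the solutions `u_f` are well
defined, and two pairs with the same data on `Γ` are related by a diffeomorphism and a gauge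
transformation which are the identity on `Γ`. Here `b` is the standard basis of `ℝ^n`, and the
orthogonal complement of `b 0` is the hyperplane `y_0 = 0`. -/
theorem result {n N : ℕ} [NeZero n] (hn : 3 ≤ n) (hN : 1 ≤ N) {M : Type u} [TopologicalSpace M]
    [ChartedSpace (EuclideanHalfSpace n) M] [IsManifold (𝓡∂ n) ∞ M] [T2Space M] [CompactSpace M]
    [ConnectedSpace M] [MeasurableSpace M] [BorelSpace M] (Γ : Set M)
    (hΓ : Γ ⊆ (𝓡∂ n).boundary M)
    (ho : IsOpen (Subtype.val ⁻¹' Γ : Set ((𝓡∂ n).boundary M))) (hne : Γ.Nonempty) :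
    let b : Fin n → EuclideanSpace ℝ (Fin n) := fun i => EuclideanSpace.single i 1
    WellDef (𝓡∂ n) (EuclideanSpace ℂ (Fin N)) b (ℝ ∙ b 0)ᗮ Γ ∧
      Determined (𝓡∂ n) (EuclideanSpace ℂ (Fin N)) b (ℝ ∙ b 0)ᗮ Γ :=
  Vale.Agent.P088I65.main hn hN Γ hΓ ho hne

end Vale.Agent.Results.P088.AIntrinsic
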